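import Mathlib
import Vale.Agent.P078.Tr.Defs

/-!
# Toolkit: membership in `M` and `A` of functional calculus and inverses
-/

open scoped ComplexOrder InnerProductSpace

noncomputable section

namespace Vale.Agent.P078.Tr

universe u

variable {H : Type u} [NormedAddCommGroup H] [InnerProductSpace ℂ H] [CompleteSpace H]

namespace Tracial

variable (S : Tracial H)

lemma mem_M_iff {x : Op H} : x ∈ S.M ↔ ∀ y ∈ S.M.commutant, y * x = x * y := by
  conv_lhs => rw [← VonNeumannAlgebra.commutant_commutant S.M]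
  exact VonNeumannAlgebra.mem_commutant_iff

lemma commute_of_mem {x y : Op H} (hx : x ∈ S.M) (hy : y ∈ S.M.commutant) : Commute y x :=
  (S.mem_M_iff.1 hx) y hy

lemma smul_mem_M (c : ℂ) {x : Op H} (hx : x ∈ S.M) : c • x ∈ S.M :=
  S.M.toStarSubalgebra.smul_mem hx c

lemma rsmul_mem_M (c : ℝ) {x : Op H} (hx : x ∈ S.M) : c • x ∈ S.M := by
  rw [← Complex.coe_smul c x]
  exact S.smul_mem_M _ hx

lemma rsmul_mem_A (c : ℝ) {x : Op H} (hx : x ∈ S.A) : c • x ∈ S.A := by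
  rw [← Complex.coe_smul c x]
  exact S.A.smul_mem hx _

lemma isClosed_M : IsClosed (S.M : Set (Op H)) := by
  rw [← S.M.centralizer_centralizer]
  exact Set.isClosed_centralizer _

lemma coe_A_eq : (S.A : Set (Op H)) = (S.M : Set (Op H)) ∩ Set.centralizer (S.A : Set (Op H)) := by
  ext x
  refine ⟨fun hx => ⟨S.le x hx, fun a ha => S.comm a ha x hx⟩, fun hx => ?_⟩
  exact S.masa x hx.1 fun a ha => (hx.2 a ha).symm

lemma isClosed_A : IsClosed (S.A : Set (Op H)) := by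
  rw [S.coe_A_eq]
  exact S.isClosed_M.inter (Set.isClosed_centralizer _)

instance instIsClosedA : IsClosed (S.A : Set (Op H)) := S.isClosed_A

/-- `A` as a commutative C*-algebra. -/
instance commCStarAlgebraA : CommCStarAlgebra S.A :=
  { (StarSubalgebra.cstarAlgebra S.A : CStarAlgebra S.A) with
    mul_comm := fun a b => Subtype.ext (S.comm _ a.2 _ b.2) }

lemma cfc_mem_M {x : Op H} (hx : x ∈ S.M) (f : ℝ → ℝ) : cfc f x ∈ S.M :=
  S.mem_M_iff.2 fun _ hy => ((S.commute_of_mem hx hy).symm.cfc_real f).symm.eq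

lemma cfc_mem_A {x : Op H} (hx : x ∈ S.A) (f : ℝ → ℝ) : cfc f x ∈ S.A :=
  S.masa _ (S.cfc_mem_M (S.le x hx) f) fun a ha =>
    (Commute.cfc_real (S.comm x hx a ha : Commute x a) f).eq

lemma sqrt_mem_M {x : Op H} (hx : x ∈ S.M) : CFC.sqrt x ∈ S.M :=
  S.mem_M_iff.2 fun y hy => by
    rw [CFC.sqrt, cfcₙ_eq_cfc]
    exact ((S.commute_of_mem hx hy).symm.cfc_nnreal NNReal.sqrt).symm.eq

lemma sqrt_mem_A {x : Op H} (hx : x ∈ S.A) : CFC.sqrt x ∈ S.A :=
  S.masa _ (S.sqrt_mem_M (S.le x hx)) fun a ha => by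
    rw [CFC.sqrt, cfcₙ_eq_cfc]
    exact (Commute.cfc_nnreal (S.comm x hx a ha : Commute x a) NNReal.sqrt).eq

lemma abs_mem_M {x : Op H} (hx : x ∈ S.M) : CFC.abs x ∈ S.M :=
  S.sqrt_mem_M (mul_mem (star_mem hx) hx)

lemma abs_mem_A {x : Op H} (hx : x ∈ S.A) : CFC.abs x ∈ S.A :=
  S.sqrt_mem_A (mul_mem (star_mem hx) hx)

lemma opMax_mem_A {x y : Op H} (hx : x ∈ S.A) (hy : y ∈ S.A) : opMax x y ∈ S.A :=
  S.rsmul_mem_A _ (add_mem (add_mem hx hy) (S.abs_mem_A (sub_mem hx hy)))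

lemma inverse_mem_M {x : Op H} (hx : x ∈ S.M) : Ring.inverse x ∈ S.M := by
  refine S.mem_M_iff.2 fun y hy => ?_
  by_cases h : IsUnit x
  · obtain ⟨u, rfl⟩ := h
    rw [Ring.inverse_unit]
    exact ((S.commute_of_mem hx hy).units_inv_right (u := u)).eq
  · rw [Ring.inverse_non_unit _ h, mul_zero, zero_mul]

lemma inverse_mem_A {x : Op H} (hx : x ∈ S.A) : Ring.inverse x ∈ S.A := by
  refine S.masa _ (S.inverse_mem_M (S.le x hx)) fun a ha => ?_
  by_cases h : IsUnit x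
  · obtain ⟨u, rfl⟩ := h
    rw [Ring.inverse_unit]
    exact (Commute.units_inv_left (u := u) (S.comm _ hx a ha : Commute (u : Op H) a)).eq
  · rw [Ring.inverse_non_unit _ h, mul_zero, zero_mul]

end Tracial

end Vale.Agent.P078.Tr
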