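import Mathlib
import Vale.Agent.P078.Tr.Defs
import Vale.Agent.P078.Tr.Basics.Closed

/-!
# Toolkit: range projections and spectral cuts
-/

open scoped ComplexOrder InnerProductSpace

noncomputable section

namespace Vale.Agent.P078.Tr

universe u

variable {H : Type u} [NormedAddCommGroup H] [InnerProductSpace ℂ H] [CompleteSpace H]

/-- The projection onto the closure of the range. -/
def rangeProj (g : Op H) : Op H := g.range.topologicalClosure.starProjection

lemma isStarProjection_rangeProj (g : Op H) : IsStarProjection (rangeProj g) :=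
  isStarProjection_starProjection

lemma rangeProj_apply (g : Op H) (v : H) : rangeProj g (g v) = g v :=
  Submodule.starProjection_eq_self_iff.2
    (Submodule.le_topologicalClosure _ (LinearMap.mem_range_self (g : H →ₗ[ℂ] H) v))

lemma rangeProj_mul_self (g : Op H) : rangeProj g * g = g :=
  ContinuousLinearMap.ext fun v => rangeProj_apply g v

lemma mul_rangeProj_self {g : Op H} (hg : IsSelfAdjoint g) : g * rangeProj g = g := by
  have h := congrArg star (rangeProj_mul_self g)
  rwa [star_mul, hg.star_eq, (isStarProjection_rangeProj g).isSelfAdjoint.star_eq] at h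

lemma rangeProj_eq_zero_of_apply {g : Op H} (hg : IsSelfAdjoint g) {v : H} (hv : g v = 0) :
    rangeProj g v = 0 := by
  rw [rangeProj, Submodule.starProjection_apply_eq_zero_iff, Submodule.orthogonal_closure,
    Submodule.mem_orthogonal]
  rintro _ ⟨w, rfl⟩
  change ⟪g w, v⟫_ℂ = 0
  rw [← ContinuousLinearMap.adjoint_inner_right, ← ContinuousLinearMap.star_eq_adjoint, hg.star_eq,
    hv, inner_zero_right]

/-- What annihilates `g` annihilates its range projection. -/
lemma mul_rangeProj_eq_zero {g x : Op H} (h : x * g = 0) : x * rangeProj g = 0 := by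
  ext v
  have hsub : g.range.topologicalClosure ≤ x.ker := by
    refine Submodule.topologicalClosure_minimal _ ?_ x.isClosed_ker
    rintro _ ⟨w, rfl⟩
    exact DFunLike.congr_fun h w
  exact hsub (Submodule.starProjection_apply_mem _ v)

lemma rangeProj_mul_eq_zero {g x : Op H} (hg : IsSelfAdjoint g) (h : g * x = 0) :
    rangeProj g * x = 0 :=
  ContinuousLinearMap.ext fun v => rangeProj_eq_zero_of_apply hg (DFunLike.congr_fun h v)

lemma commute_rangeProj {g b : Op H} (hg : IsSelfAdjoint g) (hb : Commute b g) :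
    Commute b (rangeProj g) := by
  have h1 : ∀ {c : Op H}, Commute c g → rangeProj g * c * rangeProj g = c * rangeProj g := by
    intro c hc
    have h2 : (1 - rangeProj g) * c * g = 0 := by
      rw [mul_assoc, hc.eq, ← mul_assoc, sub_mul, one_mul, rangeProj_mul_self, sub_self, zero_mul]
    have h3 := mul_rangeProj_eq_zero h2
    rw [sub_mul, sub_mul, one_mul, sub_eq_zero] at h3
    exact h3.symm
  have hs : Commute (star b) g := by
    have := hb.star_star
    rwa [hg.star_eq] at this
  have h4 := congrArg star (h1 hs)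
  rw [star_mul, star_mul, star_mul, star_star,
    (isStarProjection_rangeProj g).isSelfAdjoint.star_eq, ← mul_assoc] at h4
  show b * rangeProj g = rangeProj g * b
  rw [← h4, h1 hb]

/-- The positive part of `h - t`. -/
def hinge (h : Op H) (t : ℝ) : Op H := cfc (fun s : ℝ => max (s - t) 0) h

/-- The spectral projection of `h` for the interval above `t`. -/
def cut (h : Op H) (t : ℝ) : Op H := rangeProj (hinge h t)

lemma hinge_isSelfAdjoint (h : Op H) (t : ℝ) : IsSelfAdjoint (hinge h t) := cfc_predicate _ h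

lemma hinge_nonneg (h : Op H) (t : ℝ) : 0 ≤ hinge h t :=
  cfc_nonneg fun _ _ => le_max_right _ _

lemma isStarProjection_cut (h : Op H) (t : ℝ) : IsStarProjection (cut h t) :=
  isStarProjection_rangeProj _

lemma cut_mul_hinge (h : Op H) (t : ℝ) : cut h t * hinge h t = hinge h t := rangeProj_mul_self _

lemma hinge_mul_cut (h : Op H) (t : ℝ) : hinge h t * cut h t = hinge h t :=
  mul_rangeProj_self (hinge_isSelfAdjoint h t)

lemma commute_cut {h b : Op H} (t : ℝ) (hb : Commute h b) : Commute b (cut h t) :=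
  commute_rangeProj (hinge_isSelfAdjoint h t) (hb.cfc_real _).symm

lemma hinge_sub_add {h : Op H} (hh : IsSelfAdjoint h) (t : ℝ) :
    hinge h t - cfc (fun s : ℝ => max (t - s) 0) h = h - t • (1 : Op H) := by
  rw [hinge, ← cfc_sub _ _ h]
  have : ∀ s ∈ spectrum ℝ h, max (s - t) 0 - max (t - s) 0 = s - t := fun s _ => by
    rcases le_total s t with hst | hst <;> simp [hst]
  rw [cfc_congr this, cfc_sub _ _ h, cfc_id' ℝ h, cfc_const t h, Algebra.algebraMap_eq_smul_one]

/-- Below a cut, `h` is at most `t`. -/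
lemma le_of_cut {h : Op H} (hh : IsSelfAdjoint h) (t : ℝ) :
    (1 - cut h t) * (h - t • (1 : Op H)) * (1 - cut h t) ≤ 0 := by
  have hq : (1 - cut h t) * hinge h t = 0 := by rw [sub_mul, one_mul, cut_mul_hinge, sub_self]
  have hn : (0 : Op H) ≤ cfc (fun s : ℝ => max (t - s) 0) h :=
    cfc_nonneg fun _ _ => le_max_right _ _
  have hqs : star (1 - cut h t) = 1 - cut h t :=
    ((isStarProjection_cut h t).one_sub).isSelfAdjoint.star_eq
  have h1 := star_left_conjugate_nonneg hn (1 - cut h t)
  rw [hqs] at h1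
  rw [← hinge_sub_add hh t, mul_sub (1 - cut h t) (hinge h t), sub_mul ((1 - cut h t) * hinge h t) _ (1 - cut h t),
    hq, zero_mul, zero_sub, neg_nonpos]
  exact h1

/-- Chebyshev: a cut is at most the hinge below it, rescaled. -/
lemma cut_le_hinge {h : Op H} (hh : IsSelfAdjoint h) {s t : ℝ} (hst : s ≤ t) :
    (t - s) • cut h t ≤ hinge h s := by
  set g := hinge h t
  set f := hinge h s
  set r := cfc (fun z : ℝ => max ((t - s) - max (z - s) 0) 0) h
  have hr : r * g = 0 := by
    simp only [r, g, hinge]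
    rw [← cfc_mul _ _ h, ← cfc_zero ℝ h]
    refine cfc_congr fun z _ => ?_
    rcases le_total z t with hz | hz
    · simp [hz]
    · simp [le_sub_iff_add_le, max_eq_left (show 0 ≤ z - s by linarith), hz]
  have hr' : r * cut h t = 0 := mul_rangeProj_eq_zero hr
  have hle : (t - s) • (1 : Op H) - r ≤ f := by
    simp only [r, f, hinge]
    rw [← Algebra.algebraMap_eq_smul_one, ← cfc_const (t - s) h, ← cfc_sub _ _ h]
    refine cfc_mono fun z _ => ?_
    linarith [le_max_left ((t - s) - max (z - s) 0) 0]
  have hc : Commute f (cut h t) := (commute_cut t (Commute.refl h |>.cfc_real _).symm)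
  have hP := isStarProjection_cut h t
  have h1 : cut h t * ((t - s) • (1 : Op H) - r) * cut h t ≤ cut h t * f * cut h t := by
    simpa [hP.isSelfAdjoint.star_eq] using star_left_conjugate_le_conjugate hle (cut h t)
  rw [mul_assoc, mul_assoc, sub_mul, hr', sub_zero, smul_mul_assoc, one_mul, mul_smul_comm,
    hP.isIdempotentElem.eq, ← mul_assoc, ← hc.eq, mul_assoc, hP.isIdempotentElem.eq] at h1
  refine h1.trans ?_
  have hsplit : f - f * cut h t = (1 - cut h t) * f * (1 - cut h t) := by
    rw [sub_mul, one_mul, mul_sub, mul_one, sub_mul, ← hc.eq, mul_assoc, hP.isIdempotentElem.eq]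
    abel
  rw [← sub_nonneg, hsplit]
  simpa [(hP.one_sub).isSelfAdjoint.star_eq] using
    star_left_conjugate_nonneg (hinge_nonneg h s) (1 - cut h t)

namespace Tracial

variable (S : Tracial H)

lemma rangeProj_mem_M {g : Op H} (hg : g ∈ S.M) (hs : IsSelfAdjoint g) : rangeProj g ∈ S.M :=
  S.mem_M_iff.2 fun _ hy => (commute_rangeProj hs (S.commute_of_mem hg hy)).eq

lemma rangeProj_mem_A {g : Op H} (hg : g ∈ S.A) (hs : IsSelfAdjoint g) : rangeProj g ∈ S.A :=
  S.masa _ (S.rangeProj_mem_M (S.le g hg) hs) fun a ha =>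
    (commute_rangeProj hs (S.comm a ha g hg : Commute a g)).symm.eq

lemma hinge_mem_M {h : Op H} (hh : h ∈ S.M) (t : ℝ) : hinge h t ∈ S.M := S.cfc_mem_M hh _

lemma hinge_mem_A {h : Op H} (hh : h ∈ S.A) (t : ℝ) : hinge h t ∈ S.A := S.cfc_mem_A hh _

lemma cut_mem_M {h : Op H} (hh : h ∈ S.M) (t : ℝ) : cut h t ∈ S.M :=
  S.rangeProj_mem_M (S.hinge_mem_M hh t) (hinge_isSelfAdjoint h t)

lemma cut_mem_A {h : Op H} (hh : h ∈ S.A) (t : ℝ) : cut h t ∈ S.A :=
  S.rangeProj_mem_A (S.hinge_mem_A hh t) (hinge_isSelfAdjoint h t)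

end Tracial

end Vale.Agent.P078.Tr
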