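import Mathlib
import Vale.Agent.P078.Tr.Defs
import Vale.Agent.P078.Tr.Basics.Closed

/-!
# Toolkit: the trace
-/

open scoped ComplexOrder InnerProductSpace ComplexConjugate

noncomputable section

namespace Vale.Agent.P078.Tr

universe u

variable {H : Type u} [NormedAddCommGroup H] [InnerProductSpace ℂ H] [CompleteSpace H]

namespace Tracial

variable (S : Tracial H)

lemma tau_comm' {x y : Op H} (hx : x ∈ S.M) (hy : y ∈ S.M) : S.tau (x * y) = S.tau (y * x) :=
  S.trace x hx y hy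

lemma norm_term_le (x : Op H) (k : ℕ) :
    ‖⟪S.vec k, x (S.vec k)⟫_ℂ‖ ≤ ‖x‖ * ‖S.vec k‖ ^ 2 := by
  refine (norm_inner_le_norm _ _).trans ?_
  calc ‖S.vec k‖ * ‖x (S.vec k)‖ ≤ ‖S.vec k‖ * (‖x‖ * ‖S.vec k‖) :=
        mul_le_mul_of_nonneg_left (x.le_opNorm _) (norm_nonneg _)
    _ = _ := by ring

lemma summable_term (x : Op H) : Summable fun k => ⟪S.vec k, x (S.vec k)⟫_ℂ :=
  Summable.of_norm_bounded (S.norm_one.summable.mul_left ‖x‖) (S.norm_term_le x)

lemma hasSum_tau (x : Op H) : HasSum (fun k => ⟪S.vec k, x (S.vec k)⟫_ℂ) (S.tau x) :=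
  (S.summable_term x).hasSum

@[simp] lemma tau_zero : S.tau (0 : Op H) = 0 := by simp [tau]

@[simp] lemma tau_one : S.tau (1 : Op H) = 1 := by
  refine (S.hasSum_tau 1).unique ?_
  simpa [inner_self_eq_norm_sq_to_K] using Complex.hasSum_ofReal.2 S.norm_one

lemma tau_add (x y : Op H) : S.tau (x + y) = S.tau x + S.tau y := by
  refine (S.hasSum_tau _).unique ?_
  simpa [inner_add_right] using (S.hasSum_tau x).add (S.hasSum_tau y)

lemma tau_neg (x : Op H) : S.tau (-x) = -S.tau x := by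
  refine (S.hasSum_tau _).unique ?_
  simpa [inner_neg_right] using (S.hasSum_tau x).neg

lemma tau_sub (x y : Op H) : S.tau (x - y) = S.tau x - S.tau y := by
  rw [sub_eq_add_neg, tau_add, tau_neg, sub_eq_add_neg]

lemma tau_smul (c : ℂ) (x : Op H) : S.tau (c • x) = c * S.tau x := by
  refine (S.hasSum_tau _).unique ?_
  simpa [inner_smul_right] using (S.hasSum_tau x).mul_left c

lemma tau_rsmul (c : ℝ) (x : Op H) : S.tau (c • x) = c * S.tau x := by
  rw [← Complex.coe_smul c x, tau_smul]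

lemma tau_sum {ι : Type*} (s : Finset ι) (f : ι → Op H) :
    S.tau (∑ i ∈ s, f i) = ∑ i ∈ s, S.tau (f i) := by
  classical
  induction s using Finset.induction_on with
  | empty => simp
  | insert i s hi ih => rw [Finset.sum_insert hi, Finset.sum_insert hi, tau_add, ih]

lemma tau_star (x : Op H) : S.tau (star x) = conj (S.tau x) := by
  rw [tau, tau, Complex.conj_tsum]
  refine tsum_congr fun k => ?_
  rw [inner_conj_symm, ContinuousLinearMap.star_eq_adjoint,
    ContinuousLinearMap.adjoint_inner_right]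

lemma norm_tau_le (x : Op H) : ‖S.tau x‖ ≤ ‖x‖ :=
  tsum_of_norm_bounded (by simpa using S.norm_one.mul_left ‖x‖) (S.norm_term_le x)

lemma abs_tr_le (x : Op H) : |S.tr x| ≤ ‖x‖ :=
  (Complex.abs_re_le_norm _).trans (S.norm_tau_le x)

@[simp] lemma tr_zero : S.tr (0 : Op H) = 0 := by simp [tr]

@[simp] lemma tr_one : S.tr (1 : Op H) = 1 := by simp [tr]

lemma tr_add (x y : Op H) : S.tr (x + y) = S.tr x + S.tr y := by simp [tr, tau_add]

lemma tr_neg (x : Op H) : S.tr (-x) = -S.tr x := by simp [tr, tau_neg]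

lemma tr_sub (x y : Op H) : S.tr (x - y) = S.tr x - S.tr y := by simp [tr, tau_sub]

lemma tr_smul (c : ℝ) (x : Op H) : S.tr (c • x) = c * S.tr x := by simp [tr, tau_rsmul]

lemma tr_sum {ι : Type*} (s : Finset ι) (f : ι → Op H) :
    S.tr (∑ i ∈ s, f i) = ∑ i ∈ s, S.tr (f i) := by simp [tr, tau_sum]

lemma tr_star (x : Op H) : S.tr (star x) = S.tr x := by simp [tr, tau_star]

lemma tr_comm {x y : Op H} (hx : x ∈ S.M) (hy : y ∈ S.M) : S.tr (x * y) = S.tr (y * x) := by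
  rw [tr, tr, S.tau_comm' hx hy]

lemma tau_nonneg' {x : Op H} (h : 0 ≤ x) : 0 ≤ S.tau x :=
  tsum_nonneg fun k => ((ContinuousLinearMap.nonneg_iff_isPositive x).1 h).inner_nonneg_right _

lemma tr_nonneg {x : Op H} (h : 0 ≤ x) : 0 ≤ S.tr x := (Complex.nonneg_iff.1 (S.tau_nonneg' h)).1

lemma tr_mono {x y : Op H} (h : x ≤ y) : S.tr x ≤ S.tr y := by
  have := S.tr_nonneg (sub_nonneg.2 h)
  rw [tr_sub] at this
  linarith

/-- The squared 2-norm. -/
lemma hasSum_sq (x : Op H) :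
    HasSum (fun k => ‖x (S.vec k)‖ ^ 2) (S.tr (star x * x)) := by
  refine HasSum.congr_fun (Complex.hasSum_re (S.hasSum_tau (star x * x))) fun k => ?_
  rw [ContinuousLinearMap.mul_apply, ContinuousLinearMap.star_eq_adjoint,
    ContinuousLinearMap.adjoint_inner_right, inner_self_eq_norm_sq_to_K]
  norm_cast

lemma tr_star_mul_nonneg (x : Op H) : 0 ≤ S.tr (star x * x) :=
  S.tr_nonneg (star_mul_self_nonneg x)

lemma apply_sq_le (x : Op H) (k : ℕ) : ‖x (S.vec k)‖ ^ 2 ≤ S.tr (star x * x) :=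
  le_hasSum (S.hasSum_sq x) k fun _ _ => sq_nonneg _

lemma eq_zero_of_sq_eq_zero {x : Op H} (hx : x ∈ S.M) (h : S.tr (star x * x) = 0) : x = 0 := by
  refine S.separating x hx fun k => norm_eq_zero.1 ?_
  nlinarith [S.apply_sq_le x k, norm_nonneg (x (S.vec k))]

lemma tau_faithful' {x : Op H} (hx : x ∈ S.M) (h0 : 0 ≤ x) (h : S.tau x = 0) : x = 0 := by
  have e : star (CFC.sqrt x) * CFC.sqrt x = x := by
    rw [(CFC.sqrt_nonneg x).isSelfAdjoint.star_eq, CFC.sqrt_mul_sqrt_self x h0]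
  have := S.eq_zero_of_sq_eq_zero (S.sqrt_mem_M hx) (by rw [e, tr, h, Complex.zero_re])
  rw [← e, this, mul_zero]

/-- The Cauchy-Schwarz inequality. -/
lemma norm_tau_star_mul_sq_le (x y : Op H) :
    ‖S.tau (star x * y)‖ ^ 2 ≤ S.tr (star x * x) * S.tr (star y * y) := by
  have hx := S.hasSum_sq x
  have hy := S.hasSum_sq y
  have hterm : ∀ k, ⟪S.vec k, (star x * y) (S.vec k)⟫_ℂ = ⟪x (S.vec k), y (S.vec k)⟫_ℂ := fun k => by
    rw [ContinuousLinearMap.mul_apply, ContinuousLinearMap.star_eq_adjoint,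
      ContinuousLinearMap.adjoint_inner_right]
  have hsum : HasSum (fun k => ⟪x (S.vec k), y (S.vec k)⟫_ℂ) (S.tau (star x * y)) :=
    (S.hasSum_tau (star x * y)).congr_fun fun k => (hterm k).symm
  have hfin : ∀ n, ‖∑ k ∈ Finset.range n, ⟪x (S.vec k), y (S.vec k)⟫_ℂ‖ ^ 2 ≤
      S.tr (star x * x) * S.tr (star y * y) := fun n => by
    calc ‖∑ k ∈ Finset.range n, ⟪x (S.vec k), y (S.vec k)⟫_ℂ‖ ^ 2
        ≤ (∑ k ∈ Finset.range n, ‖x (S.vec k)‖ * ‖y (S.vec k)‖) ^ 2 :=
          pow_le_pow_left₀ (norm_nonneg _)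
            ((norm_sum_le _ _).trans (Finset.sum_le_sum fun k _ => norm_inner_le_norm _ _)) 2
      _ ≤ (∑ k ∈ Finset.range n, ‖x (S.vec k)‖ ^ 2) * ∑ k ∈ Finset.range n, ‖y (S.vec k)‖ ^ 2 :=
          Finset.sum_mul_sq_le_sq_mul_sq _ _ _
      _ ≤ _ := mul_le_mul (sum_le_hasSum _ (fun _ _ => sq_nonneg _) hx)
          (sum_le_hasSum _ (fun _ _ => sq_nonneg _) hy) (by positivity) (S.tr_star_mul_nonneg x)
  exact le_of_tendsto ((hsum.tendsto_sum_nat.norm).pow 2) (Filter.Eventually.of_forall hfin)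

lemma tr_star_mul_sq_le (x y : Op H) :
    S.tr (star x * y) ^ 2 ≤ S.tr (star x * x) * S.tr (star y * y) := by
  refine le_trans ?_ (S.norm_tau_star_mul_sq_le x y)
  rw [← sq_abs (S.tr _)]
  exact pow_le_pow_left₀ (abs_nonneg _) (Complex.abs_re_le_norm _) 2

/-- The trace is continuous for bounded pointwise convergence. -/
lemma tendsto_tau {ι : Type*} {l : Filter ι} [l.IsCountablyGenerated] {x : ι → Op H} {y : Op H}
    {C : ℝ} (hC : ∀ i, ‖x i‖ ≤ C) (h : ∀ v, Filter.Tendsto (fun i => x i v) l (nhds (y v))) :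
    Filter.Tendsto (fun i => S.tau (x i)) l (nhds (S.tau y)) := by
  refine tendsto_tsum_of_dominated_convergence (S.norm_one.summable.mul_left C)
    (fun k => (tendsto_const_nhds.inner (h (S.vec k)))) (Filter.Eventually.of_forall fun i k => ?_)
  exact (S.norm_term_le (x i) k).trans (mul_le_mul_of_nonneg_right (hC i) (sq_nonneg _))

end Tracial

end Vale.Agent.P078.Tr
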