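import Mathlib
import Vale.Agent.P078.Tr.Defs
import Vale.Agent.P078.Tr.Basics.Trace

/-!
# Toolkit: the trace vectors are cyclic for the commutant; bounded strong limits
-/

open scoped ComplexOrder InnerProductSpace Topology
open Filter

noncomputable section

namespace Vale.Agent.P078.Tr

universe u

variable {H : Type u} [NormedAddCommGroup H] [InnerProductSpace ℂ H] [CompleteSpace H]

namespace Tracial

variable (S : Tracial H)

/-- The span of the orbit of the trace vectors under the commutant. -/
def orbit : Submodule ℂ H :=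
  Submodule.span ℂ {v | ∃ y ∈ S.M.commutant, ∃ k, y (S.vec k) = v}

lemma vec_mem_orbit (k : ℕ) : S.vec k ∈ S.orbit :=
  Submodule.subset_span ⟨1, one_mem _, k, rfl⟩

lemma orbit_invariant {y : Op H} (hy : y ∈ S.M.commutant) {v : H}
    (hv : v ∈ S.orbit.topologicalClosure) : y v ∈ S.orbit.topologicalClosure := by
  have h : S.orbit ≤ S.orbit.topologicalClosure.comap (y : H →ₗ[ℂ] H) := by
    refine Submodule.span_le.2 ?_
    rintro _ ⟨z, hz, k, rfl⟩
    exact S.orbit.le_topologicalClosure (Submodule.subset_span ⟨y * z, mul_mem hy hz, k, rfl⟩)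
  exact Submodule.topologicalClosure_minimal _ h
    (IsClosed.preimage y.continuous S.orbit.isClosed_topologicalClosure) hv

lemma orbit_dense : S.orbit.topologicalClosure = ⊤ := by
  set P := S.orbit.topologicalClosure.starProjection
  have hinv : ∀ y ∈ S.M.commutant, P * y * P = y * P := fun y hy =>
    ContinuousLinearMap.ext fun v => Submodule.starProjection_eq_self_iff.2
      (S.orbit_invariant hy (Submodule.starProjection_apply_mem _ v))
  have hP : star P = P := (isStarProjection_starProjection (U := S.orbit.topologicalClosure)).isSelfAdjoint.star_eq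
  have hmem : P ∈ S.M := S.mem_M_iff.2 fun y hy => by
    have h := congrArg star (hinv _ (star_mem hy))
    rw [star_mul, star_mul, star_mul, star_star, hP, ← mul_assoc] at h
    exact (hinv y hy).symm.trans h
  have h0 : (1 - P : Op H) = 0 := S.separating _ (sub_mem (one_mem _) hmem) fun k => by
    show S.vec k - P (S.vec k) = 0
    rw [Submodule.starProjection_eq_self_iff.2 (S.orbit.le_topologicalClosure (S.vec_mem_orbit k)),
      sub_self]
  refine eq_top_iff.2 fun v _ => ?_
  have h1 := DFunLike.congr_fun (sub_eq_zero.1 h0).symm v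
  exact Submodule.starProjection_eq_self_iff.1 h1

/-- A property of vectors that is linear, closed, stable under the commutant and true at the trace
vectors holds everywhere. -/
lemma forall_of_vec {p : H → Prop} (h0 : p 0) (hadd : ∀ v w, p v → p w → p (v + w))
    (hsmul : ∀ (c : ℂ) v, p v → p (c • v)) (hc : IsClosed {v | p v})
    (hy : ∀ y ∈ S.M.commutant, ∀ k, p (y (S.vec k))) (v : H) : p v := by
  let K : Submodule ℂ H :=
    { carrier := {v | p v}, add_mem' := fun {a b} => hadd a b, zero_mem' := h0,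
      smul_mem' := hsmul }
  have h : S.orbit ≤ K := Submodule.span_le.2 (by rintro _ ⟨y, hy', k, rfl⟩; exact hy y hy' k)
  exact Submodule.topologicalClosure_minimal _ h hc (S.orbit_dense ▸ Submodule.mem_top)

omit [CompleteSpace H] in
lemma isClosed_cauchy {C : ℝ} {x : ℕ → Op H} (hC : ∀ n, ‖x n‖ ≤ C) :
    IsClosed {v | CauchySeq fun n => x n v} := by
  refine isClosed_of_closure_subset fun v hv => Metric.cauchySeq_iff.2 fun ε hε => ?_
  have hC0 : 0 ≤ C := (norm_nonneg _).trans (hC 0)
  obtain ⟨w, hw, hvw⟩ := Metric.mem_closure_iff.1 hv (ε / (4 * (C + 1))) (by positivity)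
  obtain ⟨N, hN⟩ := Metric.cauchySeq_iff.1 hw (ε / 2) (half_pos hε)
  refine ⟨N, fun m hm n hn => ?_⟩
  have hb : ∀ i, dist (x i v) (x i w) ≤ C * (ε / (4 * (C + 1))) := fun i => by
    rw [dist_eq_norm, ← map_sub]
    refine ((x i).le_opNorm _).trans ?_
    rw [← dist_eq_norm]
    exact mul_le_mul (hC i) hvw.le dist_nonneg hC0
  have he : C * (ε / (4 * (C + 1))) ≤ ε / 4 := by
    rw [← mul_div_assoc, div_le_iff₀ (by positivity)]
    nlinarith
  calc dist (x m v) (x n v)
      ≤ dist (x m v) (x m w) + dist (x m w) (x n w) + dist (x n w) (x n v) := dist_triangle4 _ _ _ _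
    _ < ε := by
      have h1 := hb n
      rw [dist_comm] at h1
      linarith [hb m, hN m hm n hn]

/-- A bounded sequence in `M` converging at the trace vectors converges strongly to an element of
`M`. -/
lemma exists_strong_limit {C : ℝ} {x : ℕ → Op H} (hx : ∀ n, x n ∈ S.M) (hC : ∀ n, ‖x n‖ ≤ C)
    (hk : ∀ k, CauchySeq fun n => x n (S.vec k)) :
    ∃ a ∈ S.M, ‖a‖ ≤ C ∧ ∀ v, Tendsto (fun n => x n v) atTop (𝓝 (a v)) := by
  have hC0 : 0 ≤ C := (norm_nonneg _).trans (hC 0)
  have hall : ∀ v, CauchySeq fun n => x n v := by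
    refine S.forall_of_vec (p := fun v => CauchySeq fun n => x n v) ?_ ?_ ?_ (isClosed_cauchy hC) ?_
    · simpa using cauchySeq_const (0 : H)
    · intro v w hv hw
      simp only [map_add]
      exact hv.add hw
    · intro c v hv
      simpa only [map_smul, Function.comp_def] using (uniformContinuous_const_smul c).comp_cauchySeq hv
    · intro y hy k
      have := (y.uniformContinuous).comp_cauchySeq (hk k)
      have e : (fun n => x n (y (S.vec k))) = ⇑y ∘ fun n => x n (S.vec k) :=
        funext fun n => DFunLike.congr_fun (S.commute_of_mem (hx n) hy).symm.eq (S.vec k)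
      show CauchySeq fun n => x n (y (S.vec k))
      rwa [e]
  choose f hf using fun v => cauchySeq_tendsto_of_complete (hall v)
  let L : H →ₗ[ℂ] H :=
    { toFun := f
      map_add' := fun v w => tendsto_nhds_unique (hf (v + w)) (by simpa using (hf v).add (hf w))
      map_smul' := fun c v => tendsto_nhds_unique (hf (c • v)) (by simpa using (hf v).const_smul c) }
  have hL : ∀ v, ‖L v‖ ≤ C * ‖v‖ := fun v => le_of_tendsto (hf v).norm
    (Eventually.of_forall fun n => ((x n).le_opNorm v).trans
      (mul_le_mul_of_nonneg_right (hC n) (norm_nonneg v)))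
  refine ⟨L.mkContinuous C hL, S.mem_M_iff.2 fun y hy => ContinuousLinearMap.ext fun v => ?_,
    L.mkContinuous_norm_le hC0 hL, hf⟩
  have h1 : Tendsto (fun n => y (x n v)) atTop (𝓝 (y (f v))) := (y.continuous.tendsto _).comp (hf v)
  exact tendsto_nhds_unique h1
    ((hf (y v)).congr fun n => (DFunLike.congr_fun (S.commute_of_mem (hx n) hy).eq v).symm)

/-- A bounded sequence in `M` that tends to zero in 2-norm tends to zero strongly. -/
lemma tendsto_zero_of_sq {C : ℝ} {x : ℕ → Op H} (hx : ∀ n, x n ∈ S.M) (hC : ∀ n, ‖x n‖ ≤ C)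
    (h : Tendsto (fun n => S.tr (star (x n) * x n)) atTop (𝓝 0)) (v : H) :
    Tendsto (fun n => x n v) atTop (𝓝 0) := by
  have hk : ∀ k, Tendsto (fun n => x n (S.vec k)) atTop (𝓝 0) := fun k => by
    refine squeeze_zero_norm (fun n => Real.le_sqrt_of_sq_le (S.apply_sq_le (x n) k)) ?_
    simpa using h.sqrt
  obtain ⟨a, ha, -, hlim⟩ := S.exists_strong_limit hx hC fun k => (hk k).cauchySeq
  have : a = 0 := S.separating a ha fun k => tendsto_nhds_unique (hlim (S.vec k)) (hk k)
  simpa [this] using hlim v

/-- Elements of the unit ball of `M` with small 2-norm are small at given vectors. -/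
lemma exists_small (F : Finset H) {δ : ℝ} (hδ : 0 < δ) :
    ∃ η > (0 : ℝ), ∀ x ∈ S.M, ‖x‖ ≤ 1 → S.tr (star x * x) ≤ η → ∀ v ∈ F, ‖x v‖ < δ := by
  by_contra hne
  push Not at hne
  choose x hx hn hs v hv hvδ using fun n : ℕ => hne (1 / (n + 1)) (by positivity)
  have h0 : Tendsto (fun n => S.tr (star (x n) * x n)) atTop (𝓝 0) :=
    squeeze_zero (fun n => S.tr_star_mul_nonneg _) hs tendsto_one_div_add_atTop_nhds_zero_nat
  have hF : Tendsto (fun n => ∑ w ∈ F, ‖x n w‖) atTop (𝓝 0) := by
    simpa using tendsto_finsetSum F fun w _ => (S.tendsto_zero_of_sq hx hn h0 w).norm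
  obtain ⟨N, hN⟩ := eventually_atTop.1 (hF.eventually (eventually_lt_nhds hδ))
  refine absurd (hN N le_rfl) (not_lt.2 ((hvδ N).trans ?_))
  exact Finset.single_le_sum (fun w _ => norm_nonneg (x N w)) (hv N)

/-- A projection of `M` of small trace is small at given vectors. -/
lemma exists_small_proj (F : Finset H) {δ : ℝ} (hδ : 0 < δ) :
    ∃ η > (0 : ℝ), ∀ e ∈ S.M, IsStarProjection e → S.tr e ≤ η → ∀ v ∈ F, ‖e v‖ < δ := by
  obtain ⟨η, hη, h⟩ := S.exists_small F hδ
  refine ⟨η, hη, fun e he hp ht => h e he (hp.norm_le) ?_⟩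
  rwa [hp.isSelfAdjoint.star_eq, hp.isIdempotentElem.eq]

end Tracial

end Vale.Agent.P078.Tr
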