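import Mathlib
import Vale.Agent.P078.Tr.Defs
import Vale.Agent.P078.Tr.Basics.Trace

/-!
# Toolkit: partitions and pinchings
-/

open scoped ComplexOrder InnerProductSpace

noncomputable section

namespace Vale.Agent.P078.Tr

universe u

variable {H : Type u} [NormedAddCommGroup H] [InnerProductSpace ℂ H] [CompleteSpace H]
  {S : Tracial H}

namespace Part

variable (P Q : Part S)

lemma mem_M (i : Fin P.n) : P.p i ∈ S.M := S.le _ (P.mem i)

lemma comm_A (i : Fin P.n) {a : Op H} (ha : a ∈ S.A) : P.p i * a = a * P.p i :=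
  S.comm _ (P.mem i) _ ha

lemma mul_self (i : Fin P.n) : P.p i * P.p i = P.p i := (P.proj i).isIdempotentElem.eq

lemma star_p (i : Fin P.n) : star (P.p i) = P.p i := (P.proj i).isSelfAdjoint.star_eq

lemma sum_apply_sq (v : H) : ∑ i, ‖P.p i v‖ ^ 2 = ‖v‖ ^ 2 := by
  have h : ∀ i, (‖P.p i v‖ ^ 2 : ℂ) = ⟪v, P.p i v⟫_ℂ := fun i => by
    have e : ⟪v, P.p i v⟫_ℂ = ⟪P.p i v, P.p i v⟫_ℂ := by
      conv_rhs => rw [← ContinuousLinearMap.adjoint_inner_right,
        ← ContinuousLinearMap.star_eq_adjoint, P.star_p, ← ContinuousLinearMap.mul_apply, P.mul_self]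
    rw [e, inner_self_eq_norm_sq_to_K]
    rfl
  apply Complex.ofReal_injective
  push_cast
  rw [Finset.sum_congr rfl fun i _ => h i, ← inner_sum, ← _root_.sum_apply (f := P.p), P.sum_eq,
    ContinuousLinearMap.one_apply, inner_self_eq_norm_sq_to_K]
  rfl

lemma pinch_mem {x : Op H} (hx : x ∈ S.M) : P.pinch x ∈ S.M :=
  sum_mem fun i _ => mul_mem (mul_mem (P.mem_M i) hx) (P.mem_M i)

lemma p_mul_pinch (i : Fin P.n) (x : Op H) : P.p i * P.pinch x = P.p i * x * P.p i := by
  rw [pinch, Finset.mul_sum, Finset.sum_eq_single i (fun j _ hj => ?_) (by simp)]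
  · rw [← mul_assoc, ← mul_assoc, P.mul_self]
  · rw [← mul_assoc, ← mul_assoc, P.orth i j (Ne.symm hj), zero_mul, zero_mul]

lemma norm_pinch_le (x : Op H) : ‖P.pinch x‖ ≤ ‖x‖ := by
  refine ContinuousLinearMap.opNorm_le_bound _ (norm_nonneg x) fun v => ?_
  refine (sq_le_sq₀ (norm_nonneg _) (by positivity)).1 ?_
  rw [← P.sum_apply_sq (P.pinch x v), mul_pow, ← P.sum_apply_sq v, Finset.mul_sum]
  refine Finset.sum_le_sum fun i _ => ?_
  have e : P.p i (P.pinch x v) = P.p i (x (P.p i v)) := DFunLike.congr_fun (P.p_mul_pinch i x) v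
  rw [e, ← mul_pow]
  refine pow_le_pow_left₀ (norm_nonneg _) ?_ 2
  refine ((P.p i).le_opNorm _).trans ((mul_le_of_le_one_left (norm_nonneg _) (P.proj i).norm_le).trans ?_)
  exact x.le_opNorm _

lemma pinch_add (x y : Op H) : P.pinch (x + y) = P.pinch x + P.pinch y := by
  simp only [pinch, mul_add, add_mul, Finset.sum_add_distrib]

lemma pinch_sub (x y : Op H) : P.pinch (x - y) = P.pinch x - P.pinch y := by
  simp only [pinch, mul_sub, sub_mul, Finset.sum_sub_distrib]

lemma pinch_star (x : Op H) : P.pinch (star x) = star (P.pinch x) := by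
  simp only [pinch, star_sum, star_mul, P.star_p, mul_assoc]

lemma pinch_smul (c : ℂ) (x : Op H) : P.pinch (c • x) = c • P.pinch x := by
  simp only [pinch, mul_smul_comm, smul_mul_assoc, Finset.smul_sum]

lemma pinch_nonneg {x : Op H} (hx : 0 ≤ x) : 0 ≤ P.pinch x :=
  Finset.sum_nonneg fun i _ => by simpa [P.star_p] using star_left_conjugate_nonneg hx (P.p i)

lemma pinch_self {a : Op H} (ha : a ∈ S.A) : P.pinch a = a := by
  simp only [pinch, P.comm_A _ ha, mul_assoc, P.mul_self, ← Finset.mul_sum, P.sum_eq, mul_one]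

lemma tau_mul_pinch {b x : Op H} (hb : b ∈ S.A) (hx : x ∈ S.M) :
    S.tau (b * P.pinch x) = S.tau (b * x) := by
  calc S.tau (b * P.pinch x) = ∑ i, S.tau (P.p i * (b * x * P.p i)) := by
        rw [pinch, Finset.mul_sum, S.tau_sum]
        refine Finset.sum_congr rfl fun i _ => congrArg S.tau ?_
        rw [← mul_assoc, ← mul_assoc, ← P.comm_A i hb, ← mul_assoc, ← mul_assoc]
    _ = ∑ i, S.tau (b * x * P.p i) := Finset.sum_congr rfl fun i _ => by
        rw [S.tau_comm' (P.mem_M i) (mul_mem (mul_mem (S.le b hb) hx) (P.mem_M i)), mul_assoc,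
          P.mul_self]
    _ = _ := by rw [← S.tau_sum, ← Finset.mul_sum, P.sum_eq, mul_one]

lemma tau_pinch_adjoint {y z : Op H} (hy : y ∈ S.M) (hz : z ∈ S.M) :
    S.tau (P.pinch y * z) = S.tau (y * P.pinch z) := by
  simp only [pinch, Finset.sum_mul, Finset.mul_sum, S.tau_sum]
  refine Finset.sum_congr rfl fun i _ => ?_
  rw [mul_assoc, mul_assoc, S.tau_comm' (P.mem_M i)
    (mul_mem hy (mul_mem (P.mem_M i) hz)), mul_assoc, mul_assoc]

lemma refines_refl : P.Refines P := fun j => ⟨j, P.mul_self j⟩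

variable {P Q}

lemma Refines.trans {R : Part S} (h : R.Refines Q) (h' : Q.Refines P) : R.Refines P := fun j => by
  obtain ⟨k, hk⟩ := h j
  obtain ⟨i, hi⟩ := h' k
  exact ⟨i, by rw [← hk, ← mul_assoc, hi]⟩

lemma Refines.pinch_pinch (h : Q.Refines P) (x : Op H) : Q.pinch (P.pinch x) = Q.pinch x := by
  refine Finset.sum_congr rfl fun j _ => ?_
  obtain ⟨i, hi⟩ := h j
  have hi' : Q.p j * P.p i = Q.p j := by rw [Q.comm_A j (P.mem i), hi]
  rw [pinch, Finset.mul_sum, Finset.sum_mul, Finset.sum_eq_single i (fun k _ hk => ?_) (by simp)]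
  · calc Q.p j * (P.p i * x * P.p i) * Q.p j = Q.p j * P.p i * x * (P.p i * Q.p j) := by
          simp only [mul_assoc]
      _ = _ := by rw [hi', hi]
  · have h0 : Q.p j * P.p k = 0 := by
      rw [← hi', mul_assoc, P.orth i k (Ne.symm hk), mul_zero]
    simp only [← mul_assoc, h0, zero_mul]

/-- Refining a partition decreases the pinched 2-norm, orthogonally. -/
lemma Refines.tr_sub_sq (h : Q.Refines P) {x : Op H} (hx : x ∈ S.M) :
    S.tr (star (P.pinch x - Q.pinch x) * (P.pinch x - Q.pinch x)) =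
      S.tr (star (P.pinch x) * P.pinch x) - S.tr (star (Q.pinch x) * Q.pinch x) := by
  have hid : Q.pinch (Q.pinch x) = Q.pinch x := Q.refines_refl.pinch_pinch x
  have hPQ : S.tau (star (P.pinch x) * Q.pinch x) = S.tau (star (Q.pinch x) * Q.pinch x) := by
    conv_lhs => rw [← hid, ← Q.tau_pinch_adjoint (star_mem (P.pinch_mem hx)) (Q.pinch_mem hx),
      Q.pinch_star, h.pinch_pinch]
  have hQP : S.tr (star (Q.pinch x) * P.pinch x) = S.tr (star (Q.pinch x) * Q.pinch x) := by
    rw [← S.tr_star, star_mul, star_star, Tracial.tr, hPQ, ← Tracial.tr]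
  have hPQ' : S.tr (star (P.pinch x) * Q.pinch x) = S.tr (star (Q.pinch x) * Q.pinch x) :=
    congrArg Complex.re hPQ
  rw [star_sub, sub_mul, mul_sub, mul_sub, S.tr_sub, S.tr_sub, S.tr_sub, hQP, hPQ']
  ring

/-- The common refinement of two partitions. -/
def inter (P Q : Part S) : Part S where
  n := P.n * Q.n
  p k := P.p (finProdFinEquiv.symm k).1 * Q.p (finProdFinEquiv.symm k).2
  mem _ := mul_mem (P.mem _) (Q.mem _)
  proj _ := (P.proj _).mul (Q.proj _) (P.comm_A _ (Q.mem _))
  orth k l hkl := by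
    have hne : finProdFinEquiv.symm k ≠ finProdFinEquiv.symm l :=
      finProdFinEquiv.symm.injective.ne hkl
    generalize finProdFinEquiv.symm k = a at hne ⊢
    generalize finProdFinEquiv.symm l = b at hne ⊢
    calc P.p a.1 * Q.p a.2 * (P.p b.1 * Q.p b.2) = P.p a.1 * (Q.p a.2 * P.p b.1) * Q.p b.2 := by
          simp only [mul_assoc]
      _ = P.p a.1 * P.p b.1 * (Q.p a.2 * Q.p b.2) := by
          rw [Q.comm_A _ (P.mem _)]
          simp only [mul_assoc]
      _ = 0 := by
          by_cases h1 : a.1 = b.1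
          · rw [Q.orth _ _ fun h2 => hne (Prod.ext h1 h2), mul_zero]
          · rw [P.orth _ _ h1, zero_mul]
  sum_eq := by
    rw [← finProdFinEquiv.sum_comp, Fintype.sum_prod_type]
    simp only [Equiv.symm_apply_apply, ← Finset.mul_sum, Q.sum_eq, mul_one, P.sum_eq]

lemma inter_refines_left (P Q : Part S) : (P.inter Q).Refines P := fun k =>
  ⟨(finProdFinEquiv.symm k).1, by simp only [inter]; rw [← mul_assoc, P.mul_self]⟩

lemma inter_refines_right (P Q : Part S) : (P.inter Q).Refines Q := fun k =>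
  ⟨(finProdFinEquiv.symm k).2, by
    simp only [inter]
    rw [← mul_assoc, Q.comm_A _ (P.mem _), mul_assoc, Q.mul_self]⟩

/-- The partition with one piece. -/
def one (S : Tracial H) : Part S where
  n := 1
  p _ := 1
  mem _ := one_mem _
  proj _ := IsStarProjection.one _
  orth i j h := absurd (Subsingleton.elim i j) h
  sum_eq := by simp

/-- The partition by a projection and its complement. -/
def pair (S : Tracial H) {e : Op H} (he : e ∈ S.A) (hp : IsStarProjection e) : Part S where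
  n := 2
  p := ![e, 1 - e]
  mem := Fin.forall_fin_two.2 ⟨he, sub_mem (one_mem _) he⟩
  proj := Fin.forall_fin_two.2 ⟨hp, hp.one_sub⟩
  orth i j h := by
    fin_cases i <;> fin_cases j <;>
      simp [mul_sub, sub_mul, hp.isIdempotentElem.eq] at h ⊢
  sum_eq := by simp

lemma Refines.commute_pinch {e : Op H} {he : e ∈ S.A} {hp : IsStarProjection e}
    (h : Q.Refines (pair S he hp)) (x : Op H) : Commute e (Q.pinch x) := by
  refine Commute.sum_right _ _ _ fun j _ => ?_
  obtain ⟨i, hi⟩ := h j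
  rcases (Fin.exists_fin_two (p := fun l : Fin 2 => ![e, 1 - e] l * Q.p j = Q.p j)).1 ⟨i, hi⟩
    with hj | hj <;> simp at hj
  · have hj' : Q.p j * e = Q.p j := by rw [Q.comm_A j he, hj]
    show e * (Q.p j * x * Q.p j) = Q.p j * x * Q.p j * e
    rw [← mul_assoc, ← mul_assoc, hj, mul_assoc _ _ e, hj']
  · rw [sub_mul, one_mul, sub_eq_self] at hj
    have hj' : Q.p j * e = 0 := by rw [Q.comm_A j he, hj]
    show e * (Q.p j * x * Q.p j) = Q.p j * x * Q.p j * e
    rw [← mul_assoc, ← mul_assoc, hj, zero_mul, zero_mul, mul_assoc _ _ e, hj', mul_zero]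

end Part

end Vale.Agent.P078.Tr
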