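import Mathlib
import Vale.Agent.P078.Tr.Defs
import Vale.Agent.P078.Tr.Basics.Cut
import Vale.Agent.P078.Tr.Basics.Dense
import Vale.Agent.P078.Tr.Basics.Pinch

/-!
# The conditional expectation onto `A` as the limit of pinchings
-/

open scoped ComplexOrder InnerProductSpace Topology
open Filter

noncomputable section

namespace Vale.Agent.P078.Tr

universe u

variable {H : Type u} [NormedAddCommGroup H] [InnerProductSpace ℂ H] [CompleteSpace H]

/-- The step of a staircase between two hinges lies between two cuts. -/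
lemma hinge_step {h : Op H} (hh : IsSelfAdjoint h) {s t : ℝ} (hst : s ≤ t) :
    0 ≤ (t - s) • cut h s - (hinge h s - hinge h t) ∧
      (t - s) • cut h s - (hinge h s - hinge h t) ≤ (t - s) • (cut h s - cut h t) := by
  set g := hinge h s - hinge h t with hg
  have hgc : g = cfc (fun z : ℝ => max (z - s) 0 - max (z - t) 0) h := (cfc_sub _ _ h).symm
  have hg0 : 0 ≤ g := hgc ▸ cfc_nonneg fun z _ => by
    linarith [max_le_max (by linarith : z - t ≤ z - s) (le_refl (0 : ℝ))]
  have hg1 : g ≤ (t - s) • (1 : Op H) := by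
    rw [hgc, ← Algebra.algebraMap_eq_smul_one, ← cfc_const (t - s) h]
    refine cfc_mono fun z _ => ?_
    rcases le_total z t with hz | hz
    · rw [max_eq_right (sub_nonpos.2 hz), sub_zero]
      exact max_le (by linarith) (by linarith)
    · rw [max_eq_left (sub_nonneg.2 hz), max_eq_left (by linarith : (0 : ℝ) ≤ z - s)]
      linarith
  have hsub : g * cut h s = g := by
    have hzero : (1 - cut h s) * g = 0 := by
      have h1 : (1 - cut h s) * hinge h s = 0 := by rw [sub_mul, one_mul, cut_mul_hinge, sub_self]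
      have hP := isStarProjection_cut h s
      have hle : star g * g ≤ (t - s) • hinge h s := by
        rw [hgc, (cfc_predicate _ h : IsSelfAdjoint _).star_eq, ← cfc_mul _ _ h, hinge,
          ← cfc_smul (t - s) _ h]
        refine cfc_mono fun z _ => ?_
        have a1 : max (z - s) 0 - max (z - t) 0 ≤ max (z - s) 0 := by linarith [le_max_right (z - t) 0]
        have a0 : 0 ≤ max (z - s) 0 - max (z - t) 0 := by
          linarith [max_le_max (by linarith : z - t ≤ z - s) (le_refl (0 : ℝ))]
        have a2 : max (z - s) 0 - max (z - t) 0 ≤ t - s := by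
          rcases le_total z t with hz | hz
          · rw [max_eq_right (sub_nonpos.2 hz), sub_zero]
            exact max_le (by linarith) (by linarith)
          · rw [max_eq_left (sub_nonneg.2 hz), max_eq_left (by linarith : (0 : ℝ) ≤ z - s)]
            linarith
        exact mul_le_mul a2 a1 a0 (by linarith)
      have hconj := star_left_conjugate_le_conjugate hle (1 - cut h s)
      rw [(hP.one_sub).isSelfAdjoint.star_eq, mul_smul_comm, h1, smul_zero, zero_mul] at hconj
      have h3 : star (g * (1 - cut h s)) * (g * (1 - cut h s)) = 0 := by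
        refine le_antisymm ?_ (star_mul_self_nonneg _)
        rwa [star_mul, (hP.one_sub).isSelfAdjoint.star_eq, ← mul_assoc, mul_assoc _ (star g) g]
      have h4 := CStarRing.star_mul_self_eq_zero_iff _ |>.1 h3
      have h5 := congrArg star h4
      rwa [star_mul, star_zero, hg0.isSelfAdjoint.star_eq,
        (hP.one_sub).isSelfAdjoint.star_eq] at h5
    have h6 := congrArg star hzero
    rw [star_mul, star_zero, hg0.isSelfAdjoint.star_eq,
      ((isStarProjection_cut h s).one_sub).isSelfAdjoint.star_eq, mul_sub, mul_one, sub_eq_zero] at h6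
    exact h6.symm
  have hfix : ((t - s) • (1 : Op H) - g) * cut h t = 0 := by
    refine mul_rangeProj_eq_zero ?_
    rw [hgc, hinge, ← Algebra.algebraMap_eq_smul_one, ← cfc_const (t - s) h, ← cfc_sub _ _ h,
      ← cfc_mul _ _ h, ← cfc_zero ℝ h]
    refine cfc_congr fun z _ => ?_
    rcases le_total z t with hz | hz
    · simp [hz]
    · simp [max_eq_left (sub_nonneg.2 hz), max_eq_left (by linarith : (0 : ℝ) ≤ z - s)]
  rw [sub_mul, smul_mul_assoc, one_mul, sub_eq_zero] at hfix
  have hsub' : cut h s * g = g := by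
    have := congrArg star hsub
    rwa [star_mul, hg0.isSelfAdjoint.star_eq,
      (isStarProjection_cut h s).isSelfAdjoint.star_eq] at this
  have hfix' : cut h t * g = (t - s) • cut h t := by
    have := congrArg star hfix
    rw [star_mul, star_smul, star_trivial, hg0.isSelfAdjoint.star_eq,
      (isStarProjection_cut h t).isSelfAdjoint.star_eq] at this
    exact this.symm
  constructor
  · have := star_left_conjugate_nonneg (sub_nonneg.2 hg1) (cut h s)
    rwa [(isStarProjection_cut h s).isSelfAdjoint.star_eq, mul_sub, hsub', mul_smul_comm, mul_one,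
      sub_mul, hsub, smul_mul_assoc, (isStarProjection_cut h s).isIdempotentElem.eq] at this
  · have := star_left_conjugate_nonneg hg0 (1 - cut h t)
    rw [((isStarProjection_cut h t).one_sub).isSelfAdjoint.star_eq, sub_mul, one_mul, hfix',
      mul_sub, mul_one, sub_mul, ← hfix, smul_mul_assoc,
      (isStarProjection_cut h t).isIdempotentElem.eq, sub_self, sub_zero, sub_nonneg] at this
    rw [smul_sub]
    exact sub_le_sub_left this _

/-- What commutes with all cuts of `h` commutes with `h`. -/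
lemma commute_of_cuts {h a : Op H} (hh : IsSelfAdjoint h) (hc : ∀ t, Commute a (cut h t)) :
    Commute a h := by
  set B := ‖h‖ + 1 with hB
  have hspec : ∀ z ∈ spectrum ℝ h, -B ≤ z ∧ z ≤ B := fun z hz => by
    have h1 := (spectrum.norm_le_norm_mul_of_mem hz).trans
      (mul_le_of_le_one_right (norm_nonneg _) ContinuousLinearMap.norm_id_le)
    rw [Real.norm_eq_abs, abs_le] at h1
    constructor <;> linarith [h1.1, h1.2]
  have hlo : hinge h (-B) = h + B • (1 : Op H) := by
    rw [hinge, cfc_congr (g := fun z => z + B) fun z hz => by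
        show max (z - -B) 0 = z + B
        rw [max_eq_left (by linarith [(hspec z hz).1])]; ring,
      cfc_add h (fun z : ℝ => z) (fun _ => B), cfc_id' ℝ h, cfc_const B h, Algebra.algebraMap_eq_smul_one]
  have hhi : hinge h B = 0 := by
    rw [hinge, cfc_congr (g := fun _ => (0 : ℝ)) fun z hz => by
      show max (z - B) 0 = 0
      exact max_eq_right (by linarith [(hspec z hz).2])]
    exact cfc_const_zero ℝ h
  have key : ∀ N : ℕ, ‖a * h - h * a‖ ≤ 2 * ‖a‖ * (2 * B / (N + 1)) := by
    intro N
    set δ := 2 * B / (N + 1) with hδ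
    have hδ0 : 0 ≤ δ := by positivity
    set t : ℕ → ℝ := fun i => -B + i * δ with ht
    have hts : ∀ i, t (i + 1) - t i = δ := fun i => by simp only [ht]; push_cast; ring
    have hN : t (N + 1) = B := by simp only [ht, hδ]; push_cast; field_simp; ring
    set D := ∑ i ∈ Finset.range (N + 1),
      (δ • cut h (t i) - (hinge h (t i) - hinge h (t (i + 1)))) with hD
    have hstep := fun i => hts i ▸ hinge_step hh (s := t i) (t := t (i + 1)) (by linarith [hts i])
    have hD0 : 0 ≤ D := Finset.sum_nonneg fun i _ => (hstep i).1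
    have hD1 : D ≤ algebraMap ℝ (Op H) δ := by
      refine (Finset.sum_le_sum fun i _ => (hstep i).2).trans ?_
      rw [← Finset.smul_sum, Finset.sum_range_sub', Algebra.algebraMap_eq_smul_one]
      refine smul_le_smul_of_nonneg_left ?_ hδ0
      exact (sub_le_self _ (isStarProjection_cut h _).nonneg).trans
        (isStarProjection_cut h _).le_one
    have hn : ‖D‖ ≤ δ := (CStarAlgebra.norm_le_iff_le_algebraMap D hδ0 hD0).2 hD1
    have hS : Commute a (∑ i ∈ Finset.range (N + 1), δ • cut h (t i)) :=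
      Commute.sum_right _ _ _ fun i _ => (hc _).smul_right δ
    have e : h = (∑ i ∈ Finset.range (N + 1), δ • cut h (t i)) - D - B • (1 : Op H) := by
      have h1 : t 0 = -B := by simp [ht]
      rw [hD, Finset.sum_sub_distrib, Finset.sum_range_sub' (fun i => hinge h (t i)), h1, hN, hlo,
        hhi]
      abel
    calc ‖a * h - h * a‖ = ‖D * a - a * D‖ := by
          have hB' : Commute a (B • (1 : Op H)) := (Commute.one_right a).smul_right B
          rw [e, mul_sub, mul_sub, sub_mul, sub_mul, hS.eq, hB'.eq]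
          congr 1
          abel
      _ ≤ ‖D‖ * ‖a‖ + ‖a‖ * ‖D‖ :=
          (norm_sub_le _ _).trans (add_le_add (norm_mul_le _ _) (norm_mul_le _ _))
      _ ≤ _ := by nlinarith [norm_nonneg a, norm_nonneg D]
  have hlim : Tendsto (fun N : ℕ => 2 * ‖a‖ * (2 * B / (N + 1))) atTop (𝓝 0) := by
    have := (tendsto_one_div_add_atTop_nhds_zero_nat.const_mul (2 * ‖a‖ * (2 * B)))
    rw [mul_zero] at this
    exact this.congr fun N => by ring
  have hle : ‖a * h - h * a‖ ≤ 0 := ge_of_tendsto hlim (Eventually.of_forall key)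
  exact sub_eq_zero.1 (norm_le_zero_iff.1 hle)

namespace Tracial

variable (S : Tracial H)

/-- What commutes with the projections of `A` lies in `A` when it lies in `M`. -/
lemma mem_A_of_commute_proj {a : Op H} (ha : a ∈ S.M)
    (hc : ∀ e ∈ S.A, IsStarProjection e → Commute e a) : a ∈ S.A := by
  have hsa : ∀ h ∈ S.A, IsSelfAdjoint h → Commute a h := fun h hh hs =>
    commute_of_cuts hs fun t => (hc _ (S.cut_mem_A hh t) (isStarProjection_cut h t)).symm
  refine S.masa a ha fun b hb => ?_
  have h1 : Commute a (b + star b) :=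
    hsa _ (add_mem hb (star_mem hb)) (IsSelfAdjoint.add_star_self b)
  have h2 : Commute a (Complex.I • (b - star b)) := hsa _ (S.A.smul_mem (sub_mem hb (star_mem hb)) _) (by
    rw [IsSelfAdjoint, star_smul, star_sub, star_star, Complex.star_def, Complex.conj_I]
    module)
  have e : b = (2 : ℂ)⁻¹ • ((b + star b) + (-Complex.I) • (Complex.I • (b - star b))) := by
    rw [smul_smul, neg_mul, Complex.I_mul_I, neg_neg, one_smul]
    module
  rw [e]
  exact ((h1.add_right (h2.smul_right _)).smul_right _).eq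

/-- The pinched squared 2-norm. -/
def nsq (x : Op H) (P : Part S) : ℝ := S.tr (star (P.pinch x) * P.pinch x)

lemma tr_sq_add_le (u v : Op H) :
    S.tr (star (u + v) * (u + v)) ≤ 2 * S.tr (star u * u) + 2 * S.tr (star v * v) := by
  refine hasSum_le (fun k => ?_) (S.hasSum_sq (u + v))
    (((S.hasSum_sq u).mul_left 2).add ((S.hasSum_sq v).mul_left 2))
  rw [add_apply]
  nlinarith [norm_add_le (u (S.vec k)) (v (S.vec k)), norm_nonneg (u (S.vec k) + v (S.vec k)),
    sq_nonneg (‖u (S.vec k)‖ - ‖v (S.vec k)‖)]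

lemma tr_sq_sub_comm (u v : Op H) :
    S.tr (star (u - v) * (u - v)) = S.tr (star (v - u) * (v - u)) := by
  rw [← neg_sub v u, star_neg, neg_mul_neg]

/-- Pinchings of an element converge in 2-norm to an element of `A` with the same pairing
against `A`. -/
theorem exists_expect {x : Op H} (hx : x ∈ S.M) :
    ∃ a ∈ S.A, ‖a‖ ≤ ‖x‖ ∧ (∀ b ∈ S.A, S.tau (b * a) = S.tau (b * x)) ∧
      (0 ≤ x → 0 ≤ a) ∧
      ∀ η > (0 : ℝ), ∃ P₀ : Part S, ∀ P : Part S, P.Refines P₀ →
        S.tr (star (P.pinch x - a) * (P.pinch x - a)) ≤ η := by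
  obtain ⟨I, hI, hInear⟩ : ∃ I, (∀ P, I ≤ S.nsq x P) ∧ ∀ e > 0, ∃ P, S.nsq x P < I + e := by
    have hne : (Set.range (S.nsq x)).Nonempty := ⟨_, Part.one S, rfl⟩
    refine ⟨sInf (Set.range (S.nsq x)), fun P => csInf_le ⟨0, ?_⟩ ⟨P, rfl⟩, fun e he => ?_⟩
    · rintro _ ⟨P, rfl⟩
      exact S.tr_star_mul_nonneg _
    · obtain ⟨_, ⟨P, rfl⟩, hP⟩ := exists_lt_of_csInf_lt hne (lt_add_of_pos_right _ he)
      exact ⟨P, hP⟩
  choose P hP using fun n : ℕ => hInear (1 / ((n : ℝ) + 1)) (by positivity)
  have hd : ∀ n (Q : Part S), Q.Refines (P n) →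
      S.tr (star ((P n).pinch x - Q.pinch x) * ((P n).pinch x - Q.pinch x)) ≤ 1 / ((n : ℝ) + 1) :=
    fun n Q hQ => by
      rw [hQ.tr_sub_sq hx]
      have h1 := hI Q
      have h2 := hP n
      simp only [nsq] at h1 h2
      linarith
  have hdd : ∀ m n, ∀ Q : Part S, Q.Refines (P m) →
      S.tr (star (Q.pinch x - (P n).pinch x) * (Q.pinch x - (P n).pinch x)) ≤
        4 / ((m : ℝ) + 1) + 4 / ((n : ℝ) + 1) + 2 * (1 / ((m : ℝ) + 1)) := by
    intro m n Q hQ
    set R := (P m).inter (P n)
    have a1 := hd m R (Part.inter_refines_left _ _)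
    have a2 := hd n R (Part.inter_refines_right _ _)
    have a3 := hd m Q hQ
    rw [S.tr_sq_sub_comm] at a3
    have a4 : S.tr (star ((P m).pinch x - (P n).pinch x) * ((P m).pinch x - (P n).pinch x)) ≤
        2 * (1 / ((m : ℝ) + 1)) + 2 * (1 / ((n : ℝ) + 1)) := by
      have := S.tr_sq_add_le ((P m).pinch x - R.pinch x) (R.pinch x - (P n).pinch x)
      rw [sub_add_sub_cancel, S.tr_sq_sub_comm (R.pinch x)] at this
      linarith
    have := S.tr_sq_add_le (Q.pinch x - (P m).pinch x) ((P m).pinch x - (P n).pinch x)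
    rw [sub_add_sub_cancel] at this
    refine this.trans (le_trans (add_le_add (mul_le_mul_of_nonneg_left a3 zero_le_two)
      (mul_le_mul_of_nonneg_left a4 zero_le_two)) (le_of_eq ?_))
    ring
  have hinv : Tendsto (fun n : ℕ => 1 / ((n : ℝ) + 1)) atTop (𝓝 0) :=
    tendsto_one_div_add_atTop_nhds_zero_nat
  have hk : ∀ k, CauchySeq fun n => (P n).pinch x (S.vec k) := by
    intro k
    refine cauchySeq_of_le_tendsto_0 (fun N : ℕ => √(10 * (1 / ((N : ℝ) + 1)))) (fun m n N hm hn => ?_)
      (by simpa using (hinv.const_mul 10).sqrt)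
    rw [dist_eq_norm]
    refine Real.le_sqrt_of_sq_le ?_
    have hle : ‖(P m).pinch x (S.vec k) - (P n).pinch x (S.vec k)‖ ^ 2 ≤
        S.tr (star ((P m).pinch x - (P n).pinch x) * ((P m).pinch x - (P n).pinch x)) :=
      S.apply_sq_le ((P m).pinch x - (P n).pinch x) k
    refine hle.trans ((hdd m n (P m) (P m).refines_refl).trans ?_)
    have hmN : 1 / ((m : ℝ) + 1) ≤ 1 / ((N : ℝ) + 1) := by gcongr
    have hnN : 1 / ((n : ℝ) + 1) ≤ 1 / ((N : ℝ) + 1) := by gcongr
    rw [div_eq_mul_one_div 4 ((m : ℝ) + 1), div_eq_mul_one_div 4 ((n : ℝ) + 1)]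
    linarith
  obtain ⟨a, haM, han, hlim⟩ :=
    S.exists_strong_limit (fun n => (P n).pinch_mem hx) (fun n => (P n).norm_pinch_le x) hk
  have hA : a ∈ S.A := by
    refine S.mem_A_of_commute_proj haM fun e he hp => ?_
    let Q : ℕ → Part S := fun n => (P n).inter (Part.pair S he hp)
    have hz : ∀ v, Tendsto (fun n => ((P n).pinch x - (Q n).pinch x) v) atTop (𝓝 0) :=
      S.tendsto_zero_of_sq (fun n => sub_mem ((P n).pinch_mem hx) ((Q n).pinch_mem hx))
        (C := ‖x‖ + ‖x‖)
        (fun n => (norm_sub_le _ _).trans (add_le_add ((P n).norm_pinch_le x) ((Q n).norm_pinch_le x)))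
        (squeeze_zero (fun n => S.tr_star_mul_nonneg _)
          (fun n => hd n (Q n) (Part.inter_refines_left _ _)) hinv)
    have hQ : ∀ v, Tendsto (fun n => (Q n).pinch x v) atTop (𝓝 (a v)) := fun v => by
      simpa using (hlim v).sub (hz v)
    refine ContinuousLinearMap.ext fun v => ?_
    have h1 : Tendsto (fun n => e ((Q n).pinch x v)) atTop (𝓝 (e (a v))) :=
      (e.continuous.tendsto _).comp (hQ v)
    refine tendsto_nhds_unique h1 ((hQ (e v)).congr fun n => ?_)
    exact (DFunLike.congr_fun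
      ((Part.inter_refines_right (P n) (Part.pair S he hp)).commute_pinch x).eq v).symm
  refine ⟨a, hA, han, fun b hb => ?_, fun h0 => ?_, fun η hη => ?_⟩
  · have hl : Tendsto (fun n => S.tau (b * (P n).pinch x)) atTop (𝓝 (S.tau (b * a))) :=
      S.tendsto_tau (C := ‖b‖ * ‖x‖)
        (fun n => (norm_mul_le _ _).trans
          (mul_le_mul_of_nonneg_left ((P n).norm_pinch_le x) (norm_nonneg b)))
        fun v => (b.continuous.tendsto _).comp (hlim v)
    simp only [fun n => (P n).tau_mul_pinch hb hx] at hl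
    exact tendsto_nhds_unique hl tendsto_const_nhds
  · rw [ContinuousLinearMap.nonneg_iff_isPositive, ContinuousLinearMap.isPositive_iff_complex]
    intro v
    have hl : Tendsto (fun n => ⟪(P n).pinch x v, v⟫_ℂ) atTop (𝓝 ⟪a v, v⟫_ℂ) :=
      (hlim v).inner tendsto_const_nhds
    have h3 : 0 ≤ ⟪a v, v⟫_ℂ := ge_of_tendsto hl (Eventually.of_forall fun n =>
      ((ContinuousLinearMap.nonneg_iff_isPositive _).1 ((P n).pinch_nonneg h0)).inner_nonneg_left v)
    rw [Complex.nonneg_iff] at h3
    exact ⟨Complex.ext rfl (by simp [← h3.2]), h3.1⟩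
  · obtain ⟨N, hN⟩ := exists_nat_gt (12 / η)
    refine ⟨P N, fun Q hQ => ?_⟩
    have hfin : ∀ K, ∑ k ∈ Finset.range K, ‖(Q.pinch x - a) (S.vec k)‖ ^ 2 ≤ η := fun K => by
      have hl : Tendsto (fun n => ∑ k ∈ Finset.range K, ‖(Q.pinch x - (P n).pinch x) (S.vec k)‖ ^ 2)
          atTop (𝓝 (∑ k ∈ Finset.range K, ‖(Q.pinch x - a) (S.vec k)‖ ^ 2)) :=
        tendsto_finsetSum _ fun k _ => ((tendsto_const_nhds.sub (hlim (S.vec k))).norm.pow 2)
      refine le_of_tendsto hl ((eventually_ge_atTop N).mono fun n hn => ?_)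
      refine (sum_le_hasSum _ (fun _ _ => sq_nonneg _) (S.hasSum_sq _)).trans
        ((hdd N n Q hQ).trans ?_)
      have h1 : 4 / ((n : ℝ) + 1) ≤ 4 / ((N : ℝ) + 1) := by gcongr
      have h2 : 12 / ((N : ℝ) + 1) ≤ η := by
        rw [div_lt_iff₀ hη] at hN
        rw [div_le_iff₀ (by positivity)]
        nlinarith
      have h3 : 2 * (1 / ((N : ℝ) + 1)) ≤ 4 / ((N : ℝ) + 1) := by
        rw [mul_one_div]; gcongr; norm_num
      have h4 : 4 / ((N : ℝ) + 1) + 4 / ((N : ℝ) + 1) + 4 / ((N : ℝ) + 1) = 12 / ((N : ℝ) + 1) := by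
        ring
      linarith
    exact le_of_tendsto (S.hasSum_sq _).tendsto_sum_nat (Eventually.of_forall hfin)

end Tracial

end Vale.Agent.P078.Tr
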